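import Vale.Agent.P076W43.Defs
import Vale.Agent.P076.H791.Law

/-!
# P076: the Fourier transform on `L²` exists and is unique; transfer of the endpoint theorem
-/

open MeasureTheory Complex FourierTransform Filter Topology
open scoped ENNReal

namespace Vale.Agent.P076W43

open Vale.Agent.P076 Vale.Agent.P076.H791

variable {n : ℕ}

lemma ae_scale {p : E n → Prop} (h : ∀ᵐ η : E n, p η) :
    ∀ᵐ ξ : E n, p ((2 * Real.pi)⁻¹ • ξ) := by
  have hpi : (2 * Real.pi)⁻¹ ≠ (0 : ℝ) := by positivity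
  refine ae_of_ae_map (f := fun η : E n => (2 * Real.pi)⁻¹ • η)
    (measurable_const_smul _).aemeasurable ?_
  rw [Measure.map_addHaar_smul _ hpi]
  exact Measure.ae_smul_measure h _

lemma ae_ofE {p : E n → Prop} (h : ∀ᵐ x : Fin n → ℝ, p (toE x)) : ∀ᵐ x : E n, p x :=
  (PiLp.volume_preserving_ofLp (Fin n)).quasiMeasurePreserving.ae h

/-- the Fourier transform in the normalisation of the problem -/
noncomputable def F0 (f : L2 n) : L2 n := (memLp_hat f).toLp (hat f)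

lemma F0_ae (f : L2 n) : F0 f =ᵐ[volume] hat f := (memLp_hat f).coeFn_toLp

lemma eLp_scale (H : E n → ℂ) :
    eLpNorm (fun η : E n => H ((2 * Real.pi)⁻¹ • η)) 2 volume
      = ENNReal.ofReal |((((2 * Real.pi)⁻¹ : ℝ)) ^ Module.finrank ℝ (E n))⁻¹| ^
        (1 / (2 : ℝ≥0∞)).toReal * eLpNorm H 2 volume := by
  have hpi : (2 * Real.pi)⁻¹ ≠ (0 : ℝ) := by positivity
  have h5 := (Homeomorph.smulOfNeZero ((2 * Real.pi)⁻¹ : ℝ) hpi : E n ≃ₜ E n).measurableEmbedding
  have h6 := h5.eLpNorm_map_measure (g := H) (p := 2) (μ := (volume : Measure (E n)))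
  have h7 : Measure.map (Homeomorph.smulOfNeZero ((2 * Real.pi)⁻¹ : ℝ) hpi : E n ≃ₜ E n) volume
      = ENNReal.ofReal |((((2 * Real.pi)⁻¹ : ℝ)) ^ Module.finrank ℝ (E n))⁻¹| •
        (volume : Measure (E n)) := Measure.map_addHaar_smul _ hpi
  rw [h7, eLpNorm_smul_measure_of_ne_top (by norm_num), smul_eq_mul] at h6
  exact h6.symm

lemma continuous_F0 : Continuous (F0 (n := n)) := by
  set c : ℝ≥0∞ := ENNReal.ofReal |((((2 * Real.pi)⁻¹ : ℝ)) ^ Module.finrank ℝ (E n))⁻¹| ^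
    (1 / (2 : ℝ≥0∞)).toReal with hc
  have key : ∀ f g : L2 n, dist (F0 f) (F0 g) = c.toReal * dist f g := by
    intro f g
    have h1 : (⇑(F0 f) - ⇑(F0 g) : E n → ℂ) =ᵐ[volume] fun η : E n =>
        (𝓕 (f - g) : L2 n) ((2 * Real.pi)⁻¹ • η) := by
      have h9 : (𝓕 (f - g) : L2 n) = 𝓕 f - 𝓕 g := (Lp.fourierTransformₗᵢ (E n) ℂ).map_sub f g
      filter_upwards [F0_ae f, F0_ae g, ae_scale (Lp.coeFn_sub (𝓕 f : L2 n) (𝓕 g))] with η a b d
      rw [h9, d, Pi.sub_apply, a, b]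
      rfl
    rw [Lp.dist_def, eLpNorm_congr_ae h1, eLp_scale, ENNReal.toReal_mul, ← Lp.norm_def,
      Lp.norm_fourier_eq, dist_eq_norm]
  exact (LipschitzWith.of_dist_le' (K := c.toReal) fun f g => (key f g).le).continuous

lemma isFourier_F0 : IsFourier (F0 (n := n)) := by
  refine ⟨continuous_F0, fun f hf => ?_⟩
  have h1 := fourier_L2_ae_eq hf (Lp.memLp f)
  rw [Lp.toLp_coeFn] at h1
  filter_upwards [F0_ae f, ae_scale h1] with ξ a b
  rw [a, hat, b, Real.fourier_eq']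
  refine integral_congr_ae (Eventually.of_forall fun x => ?_)
  simp only [smul_eq_mul]
  congr 2
  rw [real_inner_smul_right]
  have : (Real.pi : ℂ) ≠ 0 := by exact_mod_cast Real.pi_ne_zero
  push_cast
  field_simp

lemma dense_integrable : Dense {f : L2 n | Integrable f} := by
  refine (SchwartzMap.denseRange_toLpCLM (E := E n) (F := ℂ) (p := 2)
    (μ := volume) ENNReal.ofNat_ne_top).mono ?_
  rintro _ ⟨φ, rfl⟩
  exact φ.integrable.congr (φ.coeFn_toLp 2 volume).symm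

lemma IsFourier.eq {F : L2 n → L2 n} (h : IsFourier F) : F = F0 :=
  Continuous.ext_on dense_integrable h.1 continuous_F0 fun f hf =>
    Lp.ext ((h.2 f hf).trans (isFourier_F0.2 f hf).symm)

theorem existsUnique_fourier : ∃! F : L2 n → L2 n, IsFourier F :=
  ⟨F0, isFourier_F0, fun _ h => h.eq⟩

lemma integrable_kernel (F : L2 n → L2 n) (f : L2 n) (t : ℝ) {a : ℝ} (ha : 0 < a) (x : Rn n) :
    Integrable (kernel F f t a x) := by
  have hm : Measurable (F f : Rn n → ℂ) := (Lp.stronglyMeasurable _).measurable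
  refine (integrable_reg hm (Lp.memLp _) 0 ha).norm.mono' ?_ (Eventually.of_forall fun ξ => ?_)
  · refine Measurable.aestronglyMeasurable ?_
    unfold kernel
    fun_prop
  · rw [norm_reg, kernel, norm_mul, Complex.norm_exp]
    simp [-Complex.ofReal_pow]

lemma value_iff (f : L2 n) (t : ℝ) (x : Rn n) (z : ℂ) :
    Value F0 f t x z ↔ Tendsto (fun a => schrReg f t a x) (𝓝[>] 0) (𝓝 z) := by
  have : (fun a : ℝ => ((2 * Real.pi : ℂ) ^ n)⁻¹ * ∫ ξ, kernel F0 f t a x ξ) =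
      fun a => schrReg f t a x := by
    funext a
    unfold schrReg
    congr 1
    · push_cast
      rfl
    · refine integral_congr_ae ?_
      filter_upwards [F0_ae f] with ξ h
      rw [kernel, h]
  rw [Value, this]

lemma hNorm_iff (s : ℝ) (f : L2 n) : hNormSq F0 s f < ⊤ ↔
    Integrable fun ξ => (1 + ‖ξ‖ ^ 2) ^ s * ‖hat f ξ‖ ^ 2 := by
  have hm : Measurable (hat f) := (stronglyMeasurable_hat f).measurable
  have h0 : ENNReal.ofReal ((2 * Real.pi) ^ n)⁻¹ ≠ 0 := by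
    rw [ne_eq, ENNReal.ofReal_eq_zero, not_le]
    positivity
  have h1 : ∫⁻ ξ, ENNReal.ofReal ((1 + ‖ξ‖ ^ 2) ^ s * ‖F0 f ξ‖ ^ 2) =
      ∫⁻ ξ, ENNReal.ofReal ((1 + ‖ξ‖ ^ 2) ^ s * ‖hat f ξ‖ ^ 2) := by
    refine lintegral_congr_ae ?_
    filter_upwards [F0_ae f] with ξ h
    rw [h]
  have h2 : AEStronglyMeasurable (fun ξ : E n => (1 + ‖ξ‖ ^ 2) ^ s * ‖hat f ξ‖ ^ 2) volume := by
    refine Measurable.aestronglyMeasurable ?_
    fun_prop
  rw [hNormSq, h1, lt_top_iff_ne_top, ← lintegral_ofReal_ne_top_iff_integrable h2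
    (Eventually.of_forall fun ξ => by positivity)]
  constructor
  · intro h h'
    rw [h', ENNReal.mul_top h0] at h
    exact h rfl
  · exact fun h => ENNReal.mul_ne_top ENNReal.ofReal_ne_top h

lemma F0_inj {f g : L2 n} (h : F0 f =ᵐ[volume] F0 g) : f = g :=
  eq_of_freq (ae_toE ((F0_ae f).symm.trans (h.trans (F0_ae g))))

lemma flow_iff (t : ℝ) (f v : L2 n) :
    (F0 v =ᵐ[volume] fun ξ => cexp (-(I * t * (‖ξ‖ ^ 2 : ℝ))) * F0 f ξ) ↔
      IsFourierPair (phys v) fun ξ => cexp (-(I * t * nrm ξ ^ 2)) * freq f ξ := by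
  constructor
  · intro h
    refine isFourierPair_congr (isFourierPair v) (ae_eq_refl _) ?_
    filter_upwards [ae_toE h, ae_toE (F0_ae v), ae_toE (F0_ae f)] with ξ a b d
    rw [freq, ← b, a, d, nrm_eq, freq]
    push_cast
    rfl
  · intro h
    obtain ⟨w, h1, h2⟩ := exists_lp h
    have hw : v = w := Lp.ext (ae_ofE h1)
    subst hw
    refine ae_ofE ?_
    filter_upwards [h2, ae_toE (F0_ae v), ae_toE (F0_ae f)] with ξ a b d
    rw [b, d, ← freq, ← a, nrm_eq, freq]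
    push_cast
    rfl

theorem existsUnique_flow : ∃! U : ℝ → L2 n → L2 n, IsFlow F0 U := by
  have h : ∀ (t : ℝ) (f : L2 n), ∃ v : L2 n,
      F0 v =ᵐ[volume] fun ξ => cexp (-(I * t * (‖ξ‖ ^ 2 : ℝ))) * F0 f ξ := by
    intro t f
    obtain ⟨v, hv⟩ := exists_evolution_L2 (isFourierPair f) t
    obtain ⟨w, h1, -⟩ := exists_lp hv
    exact ⟨w, (flow_iff t f w).2 (isFourierPair_congr hv h1 (ae_eq_refl _))⟩
  choose U hU using h
  refine ⟨U, hU, fun V hV => ?_⟩
  funext t f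
  exact F0_inj ((hV t f).trans (hU t f).symm)

/-- the strong form, transferred -/
theorem strong_of {f : L2 n} (h : ConvergesStrongly (phys f) (freq f)) :
    ∃ u : ℝ → Rn n → ℂ,
      (∀ᵐ x, Continuous (fun t => u t x) ∧ u 0 x = f x ∧ ∀ t, Value F0 f t x (u t x)) ∧
      ∀ U, IsFlow F0 U → ∀ t, U t f =ᵐ[volume] u t := by
  classical
  set P : Rn n → (ℝ → ℂ) → Prop := fun x w =>
    Continuous w ∧ w 0 = f x ∧ ∀ t, Value F0 f t x (w t) with hP
  have h1 : ∀ᵐ x : Rn n, ∃ w, P x w := by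
    refine ae_ofE ?_
    filter_upwards [h] with x hx
    obtain ⟨w, a, b, d⟩ := hx
    refine ⟨w, a, b, fun t => (value_iff _ _ _ _).2 ?_⟩
    simpa only [evolve_freq] using d t
  have h2 : ∀ᵐ x : Rn n, P x (Classical.epsilon (P x)) :=
    h1.mono fun x hx => Classical.epsilon_spec hx
  refine ⟨fun t x => Classical.epsilon (P x) t, h2, fun U hU t => ?_⟩
  refine ae_ofE ?_
  filter_upwards [value_eq (isFourierPair f) t ((flow_iff t f _).1 (hU t f)), ae_toE h2]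
    with x a b
  refine a _ ?_
  simpa only [evolve_freq] using (value_iff _ _ _ _).1 (b.2.2 t)

lemma convergesAt_of {F : L2 n → L2 n} {f : L2 n} {x : Rn n} {w : ℝ → ℂ} (h1 : Continuous w)
    (h2 : w 0 = f x) (h3 : ∀ t, Value F f t x (w t)) : ConvergesAt F f x :=
  ⟨w, Eventually.of_forall h3, h2 ▸ (h1.tendsto 0).mono_left nhdsWithin_le_nhds⟩

lemma not_convergesAt {f : L2 n} {x : Rn n} {w : ℝ → ℂ}
    (h1 : ∀ t > 0, Tendsto (fun b => schrReg f t b x) (𝓝[>] 0) (𝓝 (w t)))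
    (h2 : ∀ M : ℝ, ∃ᶠ t in 𝓝[>] (0 : ℝ), M < ‖w t‖) : ¬ ConvergesAt F0 f x := by
  rintro ⟨u, a, b⟩
  have h3 : ∀ᶠ t in 𝓝[>] (0 : ℝ), ‖u t‖ < ‖f x‖ + 1 :=
    b.norm.eventually (gt_mem_nhds (by linarith))
  obtain ⟨t, d, ⟨e, g⟩, k⟩ :=
    ((h2 (‖f x‖ + 1)).and_eventually ((a.and h3).and self_mem_nhdsWithin)).exists
  rw [tendsto_nhds_unique ((value_iff _ _ _ _).1 e) (h1 t k)] at g
  linarith

lemma integrable_mono {s s' : ℝ} (hs : s ≤ s') {f : L2 n}
    (h : Integrable fun ξ => (1 + ‖ξ‖ ^ 2) ^ s' * ‖hat f ξ‖ ^ 2) :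
    Integrable fun ξ : Fin n → ℝ => (1 + nrm ξ ^ 2) ^ s * ‖freq f ξ‖ ^ 2 := by
  have hm : Measurable (hat f) := (stronglyMeasurable_hat f).measurable
  have h1 : Integrable fun ξ : E n => (1 + ‖ξ‖ ^ 2) ^ s * ‖hat f ξ‖ ^ 2 := by
    refine h.mono' (Measurable.aestronglyMeasurable (by fun_prop))
      (Eventually.of_forall fun ξ => ?_)
    rw [Real.norm_of_nonneg (by positivity)]
    refine mul_le_mul_of_nonneg_right ?_ (by positivity)
    exact Real.rpow_le_rpow_of_exponent_le (by nlinarith [sq_nonneg ‖ξ‖]) hs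
  simp only [nrm_eq]
  exact measurePreserving_toE.integrable_comp_of_integrable h1

/-- the weight `(1 + r²)^s` is `o(r^{2 s'})` for `s < s'` -/
lemma weight_small {s s' : ℝ} (h0 : 0 ≤ s) (hs : s < s') (ε : ℝ) (hε : 0 < ε) :
    ∃ᶠ r : ℝ in atTop, (1 + max r 0 ^ 2) ^ s ≤ ε * r ^ (2 * s') := by
  have h1 : Tendsto (fun r : ℝ => 2 ^ s * r ^ (-(2 * (s' - s)))) atTop (𝓝 (2 ^ s * 0)) :=
    (tendsto_rpow_neg_atTop (by linarith)).const_mul _
  rw [mul_zero] at h1
  refine Eventually.frequently ?_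
  filter_upwards [h1.eventually (gt_mem_nhds hε), eventually_ge_atTop (1 : ℝ)] with r a b
  have hr : 0 < r := by linarith
  rw [max_eq_left hr.le]
  calc (1 + r ^ 2) ^ s ≤ (2 * r ^ 2) ^ s :=
        Real.rpow_le_rpow (by positivity) (by nlinarith) h0
    _ = 2 ^ s * r ^ (-(2 * (s' - s))) * r ^ (2 * s') := by
        rw [Real.mul_rpow (by norm_num) (by positivity), mul_assoc, ← Real.rpow_add hr,
          ← Real.rpow_natCast, ← Real.rpow_mul hr.le]
        congr 2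
        push_cast
        ring
    _ ≤ ε * r ^ (2 * s') := mul_le_mul_of_nonneg_right a.le (by positivity)

end Vale.Agent.P076W43
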