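import Vale.Agent.P076W43.Bridge
import Vale.Agent.P076.H18.Final
import Vale.Agent.P076N.Fin

/-!
# P076: the question word for word, and the exact range of exponents
-/

open MeasureTheory Complex Filter Topology
open scoped ENNReal

namespace Vale.Agent.P076W43

open Vale.Agent.P076 Vale.Agent.P076.H791

variable {n : ℕ}

theorem strong (hn : 2 ≤ n) {s : ℝ} (hs : (n : ℝ) / (2 * (n + 1)) ≤ s) (f : L2 n)
    (hf : hNormSq F0 s f < ⊤) :
    (∀ᵐ x, ConvergesAt F0 f x) ∧ ∃ u : ℝ → Rn n → ℂ,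
      (∀ᵐ x, Continuous (fun t => u t x) ∧ u 0 x = f x ∧ ∀ t, Value F0 f t x (u t x)) ∧
      ∀ U, IsFlow F0 U → ∀ t, U t f =ᵐ[volume] u t := by
  obtain ⟨u, h1, h2⟩ := strong_of (Vale.Agent.P076N.endpoint_all n hn _ _ (isFourierPair f)
    (integrable_mono hs ((hNorm_iff s f).1 hf))).2
  exact ⟨h1.mono fun x hx => convergesAt_of hx.1 hx.2.1 hx.2.2, u, h1, h2⟩

theorem fails (hn : 1 ≤ n) {s : ℝ} (h0 : 0 ≤ s) (hs : s < (n : ℝ) / (2 * (n + 1))) :
    ∃ f : L2 n, hNormSq F0 s f < ⊤ ∧ ∀ x, ¬ ConvergesAt F0 f x := by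
  have hw : Monotone fun r : ℝ => (1 + max r 0 ^ 2) ^ s := fun r r' h =>
    Real.rpow_le_rpow (by positivity)
      (by gcongr) h0
  obtain ⟨f, u, z, h1, -, -, -, h2, h3⟩ := weights0 hn (unifiedConclusion0 hn) hw
    (fun r => by positivity) (weight_small h0 hs)
  refine ⟨f, (hNorm_iff s f).2 ?_, fun x => not_convergesAt (fun t ht => h2 t ht x) (h3 x)⟩
  simpa only [max_eq_left (norm_nonneg _)] using h1

theorem range_iff (hn : 2 ≤ n) {s : ℝ} (h0 : 0 ≤ s) :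
    (∀ f : L2 n, hNormSq F0 s f < ⊤ → ∀ᵐ x, ConvergesAt F0 f x) ↔
      (n : ℝ) / (2 * (n + 1)) ≤ s := by
  refine ⟨fun h => not_lt.1 fun hs => ?_, fun hs f hf => (strong hn hs f hf).1⟩
  obtain ⟨f, h1, h2⟩ := fails (by omega) h0 hs
  obtain ⟨x, hx⟩ := (h f h1).exists
  exact h2 x hx

end Vale.Agent.P076W43
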