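import Vale.Agent.P076.MathlibUsed

/-!
# P076: the objects of the question, word for word (short printed form)
-/

open MeasureTheory Complex Filter Topology
open scoped ENNReal

namespace Vale.Agent.P076S43

/-- `L²(μ)`, complex valued. -/
def LTwo {X : Type} [MeasurableSpace X] (μ : Measure X) : Type := Lp ℂ 2 μ

/-- The function (Mathlib's fixed representative) of a class in `L²(μ)`. -/
noncomputable def ev {X : Type} [MeasurableSpace X] {μ : Measure X} (f : LTwo μ) : X → ℂ :=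
  AEEqFun.cast (μ := μ) (Subtype.val f)

/-- Continuity for the norm of `L²(μ)`. -/
def IsCont {X : Type} [MeasurableSpace X] {μ : Measure X} (F : LTwo μ → LTwo μ) : Prop :=
  Continuous (X := Lp ℂ 2 μ) (Y := Lp ℂ 2 μ) F

/-- `ℝⁿ` with the Euclidean norm. -/
abbrev Rn (n : ℕ) := EuclideanSpace ℝ (Fin n)

/-- Lebesgue measure on `ℝⁿ`. -/
noncomputable def vol (n : ℕ) : Measure (Rn n) := volume

/-- `L²(ℝⁿ)`. -/
abbrev L2 (n : ℕ) : Type := LTwo (vol n)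

variable {n : ℕ}

/-- `F f = f̂`: the map `f̂(ξ) = ∫ e^{-i x·ξ} f(x) dx`, extended from `L¹ ∩ L²` by continuity. -/
def IsFourier (F : L2 n → L2 n) : Prop :=
  IsCont F ∧ ∀ f : L2 n, Integrable (ev f) (vol n) →
    ev (F f) =ᵐ[vol n] fun ξ => ∫ x, cexp (-(I * (inner ℝ x ξ : ℝ))) * ev f x ∂vol n

/-- `‖f‖²_{H^s} = (2π)⁻ⁿ ∫ (1 + |ξ|²)^s |f̂(ξ)|² dξ`. -/
noncomputable def hNormSq (F : L2 n → L2 n) (s : ℝ) (f : L2 n) : ℝ≥0∞ :=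
  ENNReal.ofReal ((2 * Real.pi) ^ n)⁻¹ *
    ∫⁻ ξ, ENNReal.ofReal ((1 + ‖ξ‖ ^ 2) ^ s * ‖ev (F f) ξ‖ ^ 2) ∂vol n

/-- The integrand `e^{i x·ξ - i t |ξ|² - a |ξ|²} f̂(ξ)`. -/
noncomputable def kernel (F : L2 n → L2 n) (f : L2 n) (t a : ℝ) (x ξ : Rn n) : ℂ :=
  cexp (I * (inner ℝ x ξ : ℝ) - I * t * (‖ξ‖ ^ 2 : ℝ) - a * (‖ξ‖ ^ 2 : ℝ)) * ev (F f) ξ

/-- `e^{itΔ}f(x)` is defined and equal to `z`. -/
def Value (F : L2 n → L2 n) (f : L2 n) (t : ℝ) (x : Rn n) (z : ℂ) : Prop :=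
  Tendsto (fun a : ℝ => ((2 * Real.pi : ℂ) ^ n)⁻¹ * ∫ ξ, kernel F f t a x ξ ∂vol n)
    (𝓝[>] 0) (𝓝 z)

/-- Convergence at `x`: `e^{itΔ}f(x)` is defined for all small `t > 0` and tends to `f x`. -/
def ConvergesAt (F : L2 n → L2 n) (f : L2 n) (x : Rn n) : Prop :=
  ∃ u : ℝ → ℂ, (∀ᶠ t in 𝓝[>] (0 : ℝ), Value F f t x (u t)) ∧ Tendsto u (𝓝[>] 0) (𝓝 (ev f x))

/-- `U t = e^{itΔ}` on `L²`, with Fourier multiplier `e^{-it|ξ|²}`. -/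
def IsFlow (F : L2 n → L2 n) (U : ℝ → L2 n → L2 n) : Prop :=
  ∀ (t : ℝ) (f : L2 n),
    ev (F (U t f)) =ᵐ[vol n] fun ξ => cexp (-(I * t * (‖ξ‖ ^ 2 : ℝ))) * ev (F f) ξ

end Vale.Agent.P076S43
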